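import Mathlib

/-!
# P318: the uniform-demand Goemans-Linial gap function is quasi-monotone

`gap n` is the integrality gap `g(n)` of the Goemans-Linial relaxation of Uniform Sparsest Cut on
`n` vertices.  We prove `g(m) ≤ g(k m)`, `(q / (q + 1))^2 g(m) ≤ g(n)` with `q = ⌊n / m⌋`, and hence
`g(m) ≤ 4 g(n)` for all `n ≥ m ≥ 2`.

Idea: blow every vertex `i` of an instance on `m` vertices up to a cluster of `w_i ∈ {q, q + 1}`
vertices, divide the capacity `c_ij` equally among the `w_i w_j` pairs between the clusters, and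
join the vertices inside a cluster by a huge capacity `M`.  Cuts that split a cluster are
expensive, the other cuts are cuts of the old instance; a feasible semimetric of the old instance
pulls back; and the relaxation of the new instance stays positive.
-/

open Finset
open scoped ENNReal

set_option linter.unusedSectionVars false

namespace Vale.Agent.Results.P318.QuasiMonotone

variable {V W : Type*} [Fintype V] [DecidableEq V] [Fintype W] [DecidableEq W]

/-- Capacities: symmetric, nonnegative, zero on the diagonal. -/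
def IsCap (c : V → V → ℝ) : Prop :=
  (∀ i j, c i j = c j i) ∧ (∀ i j, 0 ≤ c i j) ∧ ∀ i, c i i = 0

/-- The ratio of a cut `S`: capacity across the cut divided by `|S| (N - |S|)`. -/
noncomputable def cutRatio (c : V → V → ℝ) (S : Finset V) : ℝ :=
  (∑ i ∈ S, ∑ j ∈ Sᶜ, c i j) / ((S.card : ℝ) * (Sᶜ.card : ℝ))

/-- The value of uniform sparsest cut. -/
noncomputable def Phi (c : V → V → ℝ) : ℝ :=
  sInf {t | ∃ S : Finset V, S.Nonempty ∧ Sᶜ.Nonempty ∧ t = cutRatio c S}

/-- Negative-type semimetrics. -/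
def IsNegType (d : V → V → ℝ) : Prop :=
  (∃ (N : ℕ) (x : V → EuclideanSpace ℝ (Fin N)), ∀ i j, d i j = ‖x i - x j‖ ^ 2) ∧
    ∀ i j k, d i k ≤ d i j + d j k

/-- Sum over unordered pairs of a symmetric function vanishing on the diagonal. -/
noncomputable def tot (f : V → V → ℝ) : ℝ := (∑ i, ∑ j, f i j) / 2

/-- The Goemans-Linial relaxation. -/
noncomputable def glVal (c : V → V → ℝ) : ℝ :=
  sInf {t | ∃ d : V → V → ℝ, IsNegType d ∧ tot d = 1 ∧ t = tot (fun i j => c i j * d i j)}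

/-- The integrality gap for uniform demands on `n` vertices. -/
noncomputable def gap (n : ℕ) : ℝ≥0∞ :=
  ⨆ (c : Fin n → Fin n → ℝ) (_ : IsCap c ∧ 0 < glVal c), ENNReal.ofReal (Phi c / glVal c)

/-! ### basic facts -/

lemma IsNegType.nonneg {d : V → V → ℝ} (h : IsNegType d) (i j : V) : 0 ≤ d i j := by
  obtain ⟨⟨N, x, hx⟩, -⟩ := h
  rw [hx]; positivity

lemma IsNegType.diag {d : V → V → ℝ} (h : IsNegType d) (i : V) : d i i = 0 := by
  obtain ⟨⟨N, x, hx⟩, -⟩ := h
  rw [hx]; simp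

lemma IsNegType.smul {d : V → V → ℝ} (h : IsNegType d) {s : ℝ} (hs : 0 ≤ s) :
    IsNegType (fun i j => s * d i j) := by
  obtain ⟨⟨N, x, hx⟩, htri⟩ := h
  refine ⟨⟨N, fun i => Real.sqrt s • x i, fun i j => ?_⟩, fun i j k => ?_⟩
  · show s * d i j = _
    rw [← smul_sub, norm_smul, mul_pow, hx, Real.norm_eq_abs, sq_abs, Real.sq_sqrt hs]
  · have := htri i j k
    nlinarith

lemma IsNegType.comp {d : V → V → ℝ} (h : IsNegType d) (p : W → V) :
    IsNegType (fun u v => d (p u) (p v)) := by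
  obtain ⟨⟨N, x, hx⟩, htri⟩ := h
  exact ⟨⟨N, fun u => x (p u), fun u v => hx _ _⟩, fun u v z => htri _ _ _⟩

lemma tot_nonneg {f : V → V → ℝ} (h : ∀ i j, 0 ≤ f i j) : 0 ≤ tot f := by
  unfold tot
  have : 0 ≤ ∑ i, ∑ j, f i j := sum_nonneg fun i _ => sum_nonneg fun j _ => h i j
  linarith

lemma tot_smul (s : ℝ) (f : V → V → ℝ) : tot (fun i j => s * f i j) = s * tot f := by
  unfold tot
  simp only [← mul_sum]
  ring

lemma glVal_bdd (c : V → V → ℝ) (hc : IsCap c) :
    BddBelow {t | ∃ d : V → V → ℝ, IsNegType d ∧ tot d = 1 ∧ t = tot (fun i j => c i j * d i j)} := by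
  refine ⟨0, ?_⟩
  rintro t ⟨d, hd, -, rfl⟩
  exact tot_nonneg fun i j => mul_nonneg (hc.2.1 i j) (hd.nonneg i j)

/-- homogeneous form of the definition of `glVal`. -/
lemma glVal_mul_le (c : V → V → ℝ) (hc : IsCap c) {d : V → V → ℝ} (hd : IsNegType d) :
    glVal c * tot d ≤ tot (fun i j => c i j * d i j) := by
  have h0 : 0 ≤ tot d := tot_nonneg hd.nonneg
  have h1 : 0 ≤ tot (fun i j => c i j * d i j) :=
    tot_nonneg fun i j => mul_nonneg (hc.2.1 i j) (hd.nonneg i j)
  rcases h0.eq_or_lt with h | h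
  · rw [← h]; simpa using h1
  · have hmem : (tot d)⁻¹ * tot (fun i j => c i j * d i j) ∈
        {t | ∃ d : V → V → ℝ, IsNegType d ∧ tot d = 1 ∧ t = tot (fun i j => c i j * d i j)} := by
      refine ⟨fun i j => (tot d)⁻¹ * d i j, hd.smul (by positivity), ?_, ?_⟩
      · rw [tot_smul]; field_simp
      · rw [← tot_smul]
        congr 1
        funext i j
        ring
    have := csInf_le (glVal_bdd c hc) hmem
    have h2 : glVal c ≤ (tot d)⁻¹ * tot (fun i j => c i j * d i j) := this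
    calc glVal c * tot d ≤ ((tot d)⁻¹ * tot (fun i j => c i j * d i j)) * tot d :=
          mul_le_mul_of_nonneg_right h2 h0
      _ = tot (fun i j => c i j * d i j) := by field_simp

lemma cutRatio_nonneg (c : V → V → ℝ) (hc : IsCap c) (S : Finset V) : 0 ≤ cutRatio c S := by
  unfold cutRatio
  apply div_nonneg
  · exact sum_nonneg fun i _ => sum_nonneg fun j _ => hc.2.1 i j
  · positivity

lemma Phi_bdd (c : V → V → ℝ) (hc : IsCap c) :
    BddBelow {t | ∃ S : Finset V, S.Nonempty ∧ Sᶜ.Nonempty ∧ t = cutRatio c S} := by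
  refine ⟨0, ?_⟩
  rintro t ⟨S, -, -, rfl⟩
  exact cutRatio_nonneg c hc S

lemma Phi_nonneg (c : V → V → ℝ) (hc : IsCap c) : 0 ≤ Phi c := by
  apply Real.sInf_nonneg
  rintro t ⟨S, -, -, rfl⟩
  exact cutRatio_nonneg c hc S


/-! ### the blow-up -/

/-- fibre size of `p` over `i`. -/
noncomputable def wt (p : W → V) (i : V) : ℝ := ((univ.filter fun u => p u = i).card : ℝ)

lemma sum_comp_wt (p : W → V) (F : V → ℝ) : ∑ u : W, F (p u) = ∑ i : V, wt p i * F i := by
  rw [← Finset.sum_fiberwise (s := univ) (g := p)]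
  apply sum_congr rfl
  intro i _
  have : ∀ u ∈ univ.filter (fun u => p u = i), F (p u) = F i := by
    intro u hu
    rw [(mem_filter.mp hu).2]
  rw [sum_congr rfl this]
  simp [wt]

lemma sum_sum_comp_wt (p : W → V) (F : V → V → ℝ) :
    ∑ u : W, ∑ v : W, F (p u) (p v) = ∑ i, ∑ j, wt p i * wt p j * F i j := by
  have h1 : ∀ u : W, ∑ v : W, F (p u) (p v) = ∑ j, wt p j * F (p u) j :=
    fun u => sum_comp_wt p (fun j => F (p u) j)
  simp only [h1]
  rw [sum_comp_wt p (fun i => ∑ j, wt p j * F i j)]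
  apply sum_congr rfl
  intro i _
  rw [mul_sum]
  apply sum_congr rfl
  intro j _
  ring

/-- blown-up capacities. -/
noncomputable def blow (p : W → V) (c : V → V → ℝ) (M : ℝ) (u v : W) : ℝ :=
  if p u = p v then (if u = v then 0 else M) else c (p u) (p v) / (wt p (p u) * wt p (p v))

lemma blow_isCap (p : W → V) {c : V → V → ℝ} (hc : IsCap c) {M : ℝ} (hM : 0 ≤ M)
    (hw : ∀ i, 0 < wt p i) : IsCap (blow p c M) := by
  refine ⟨fun u v => ?_, fun u v => ?_, fun u => ?_⟩
  · unfold blow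
    by_cases h : p u = p v
    · by_cases h' : u = v
      · subst h'; rfl
      · have h'' : ¬ v = u := fun e => h' e.symm
        simp [h, h', h'']
    · have h'' : ¬ p v = p u := fun e => h e.symm
      simp only [h, h'', if_false]
      rw [hc.1 (p u) (p v), mul_comm]
  · unfold blow
    split_ifs
    · exact le_rfl
    · exact hM
    · exact div_nonneg (hc.2.1 _ _) (mul_pos (hw _) (hw _)).le
  · simp [blow]

lemma tot_blow_comp (p : W → V) (c : V → V → ℝ) (M : ℝ) (hw : ∀ i, 0 < wt p i)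
    {d : V → V → ℝ} (hd : ∀ i, d i i = 0) :
    tot (fun u v => blow p c M u v * d (p u) (p v)) = tot (fun i j => c i j * d i j) := by
  unfold tot
  congr 1
  have h1 : ∀ u v : W, blow p c M u v * d (p u) (p v)
      = (fun i j => c i j / (wt p i * wt p j) * d i j) (p u) (p v) := by
    intro u v
    unfold blow
    by_cases h : p u = p v
    · simp [h, hd]
    · simp [h]
  rw [sum_congr rfl (fun u _ => sum_congr rfl (fun v _ => h1 u v)),
    sum_sum_comp_wt p (fun i j => c i j / (wt p i * wt p j) * d i j)]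
  apply sum_congr rfl
  intro i _
  apply sum_congr rfl
  intro j _
  have := (hw i).ne'
  have := (hw j).ne'
  field_simp

lemma tot_comp_ge (p : W → V) {a : ℝ} (ha : 0 ≤ a) (hw : ∀ i, a ≤ wt p i)
    {d : V → V → ℝ} (hd : ∀ i j, 0 ≤ d i j) :
    a ^ 2 * tot d ≤ tot (fun u v => d (p u) (p v)) := by
  unfold tot
  rw [sum_sum_comp_wt p d]
  have : a ^ 2 * ∑ i, ∑ j, d i j ≤ ∑ i, ∑ j, wt p i * wt p j * d i j := by
    rw [mul_sum]
    apply sum_le_sum
    intro i _
    rw [mul_sum]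
    apply sum_le_sum
    intro j _
    apply mul_le_mul_of_nonneg_right _ (hd i j)
    rw [sq]
    exact mul_le_mul (hw i) (hw j) ha (ha.trans (hw i))
  linarith

lemma tot_comp_le (p : W → V) {b : ℝ} (hw0 : ∀ i, 0 ≤ wt p i) (hw : ∀ i, wt p i ≤ b)
    {d : V → V → ℝ} (hd : ∀ i j, 0 ≤ d i j) :
    tot (fun u v => d (p u) (p v)) ≤ b ^ 2 * tot d := by
  unfold tot
  rw [sum_sum_comp_wt p d]
  have : ∑ i, ∑ j, wt p i * wt p j * d i j ≤ b ^ 2 * ∑ i, ∑ j, d i j := by
    rw [mul_sum]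
    apply sum_le_sum
    intro i _
    rw [mul_sum]
    apply sum_le_sum
    intro j _
    apply mul_le_mul_of_nonneg_right _ (hd i j)
    rw [sq]
    exact mul_le_mul (hw i) (hw j) (hw0 j) ((hw0 i).trans (hw i))
  linarith

/-- every feasible `d` for `c` gives a feasible point for the blow-up. -/
lemma blow_feasible (p : W → V) {c : V → V → ℝ} (hc : IsCap c) (M : ℝ) {a : ℝ} (ha : 0 < a)
    (hw : ∀ i, a ≤ wt p i) {d : V → V → ℝ} (hd : IsNegType d) (h1 : tot d = 1) :
    ∃ t ∈ {t | ∃ d' : W → W → ℝ, IsNegType d' ∧ tot d' = 1 ∧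
        t = tot (fun u v => blow p c M u v * d' u v)},
      a ^ 2 * t ≤ tot (fun i j => c i j * d i j) := by
  have hw0 : ∀ i, 0 < wt p i := fun i => ha.trans_le (hw i)
  set σ := tot (fun u v => d (p u) (p v)) with hσ
  have hσa : a ^ 2 ≤ σ := by
    have := tot_comp_ge p ha.le hw hd.nonneg
    rw [h1, mul_one] at this
    exact this
  have hσ0 : 0 < σ := lt_of_lt_of_le (by positivity) hσa
  have hobj : 0 ≤ tot (fun i j => c i j * d i j) :=
    tot_nonneg fun i j => mul_nonneg (hc.2.1 i j) (hd.nonneg i j)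
  refine ⟨σ⁻¹ * tot (fun i j => c i j * d i j),
    ⟨fun u v => σ⁻¹ * d (p u) (p v), (hd.comp p).smul (by positivity), ?_, ?_⟩, ?_⟩
  · rw [tot_smul, ← hσ]; field_simp
  · rw [← tot_blow_comp p c M hw0 hd.diag, ← tot_smul]
    congr 1
    funext u v
    ring
  · rw [← mul_assoc]
    have : a ^ 2 * σ⁻¹ ≤ 1 := by
      rw [← div_eq_mul_inv, div_le_one hσ0]
      exact hσa
    calc a ^ 2 * σ⁻¹ * tot (fun i j => c i j * d i j)
        ≤ 1 * tot (fun i j => c i j * d i j) := mul_le_mul_of_nonneg_right this hobj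
      _ = _ := one_mul _

lemma glVal_blow_le (p : W → V) {c : V → V → ℝ} (hc : IsCap c) {M : ℝ} (hM : 0 ≤ M) {a : ℝ}
    (ha : 0 < a) (hw : ∀ i, a ≤ wt p i) (hG : 0 < glVal c) :
    a ^ 2 * glVal (blow p c M) ≤ glVal c := by
  have hw0 : ∀ i, 0 < wt p i := fun i => ha.trans_le (hw i)
  have hne : {t | ∃ d : V → V → ℝ, IsNegType d ∧ tot d = 1 ∧
      t = tot (fun i j => c i j * d i j)}.Nonempty := by
    by_contra h
    rw [Set.not_nonempty_iff_eq_empty] at h
    unfold glVal at hG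
    rw [h, Real.sInf_empty] at hG
    exact lt_irrefl _ hG
  apply le_csInf hne
  rintro t ⟨d, hd, h1, rfl⟩
  obtain ⟨t', ht', hle⟩ := blow_feasible p hc M ha hw hd h1
  have := csInf_le (glVal_bdd (blow p c M) (blow_isCap p hc hM hw0)) ht'
  have h2 : glVal (blow p c M) ≤ t' := this
  calc a ^ 2 * glVal (blow p c M) ≤ a ^ 2 * t' := mul_le_mul_of_nonneg_left h2 (by positivity)
    _ ≤ _ := hle


lemma sum_inj_le {r : V → W} (hr : Function.Injective r) {h : W → ℝ} (hh : ∀ u, 0 ≤ h u) :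
    ∑ i, h (r i) ≤ ∑ u, h u := by
  calc ∑ i, h (r i) = ∑ u ∈ univ.image r, h u := (sum_image (fun x _ y _ e => hr e)).symm
    _ ≤ ∑ u, h u := sum_le_sum_of_subset_of_nonneg (subset_univ _) (fun u _ _ => hh u)

lemma blow_lower (p : W → V) (hp : Function.Surjective p) {c : V → V → ℝ} (hc : IsCap c)
    {M : ℝ} (hM : 0 < M) {a b : ℝ} (ha : 0 < a) (hw : ∀ i, a ≤ wt p i) (hwb : ∀ i, wt p i ≤ b)
    (hG : 0 < glVal c) {d' : W → W → ℝ} (hd' : IsNegType d') (h1 : tot d' = 1) :
    1 ≤ tot (fun u v => blow p c M u v * d' u v) *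
      (2 * (Fintype.card W : ℝ) ^ 2 / M + b ^ 4 / glVal c) := by
  have hw0 : ∀ i, 0 < wt p i := fun i => ha.trans_le (hw i)
  have hcap := blow_isCap p hc hM.le hw0
  set ε := tot (fun u v => blow p c M u v * d' u v) with hε
  set f : W → W → ℝ := fun u v => blow p c M u v * d' u v with hf
  have hf0 : ∀ u v, 0 ≤ f u v := fun u v => mul_nonneg (hcap.2.1 u v) (hd'.nonneg u v)
  have hsum : ∑ u, ∑ v, f u v = 2 * ε := by
    rw [hε]; unfold tot; ring
  have hε0 : 0 ≤ ε := tot_nonneg hf0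
  set r : V → W := Function.surjInv hp with hr
  have hpr : ∀ i, p (r i) = i := Function.surjInv_eq hp
  have hrinj : Function.Injective r := Function.injective_surjInv hp
  set d : V → V → ℝ := fun i j => d' (r i) (r j) with hd
  have hdN : IsNegType d := hd'.comp r
  -- (a) distances inside a fibre are small
  have hfib : ∀ u v, p u = p v → d' u v ≤ 2 * ε / M := by
    intro u v huv
    by_cases h : u = v
    · subst h
      rw [hd'.diag]
      positivity
    · have h2 : f u v ≤ ∑ u, ∑ v, f u v :=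
        (single_le_sum (fun v _ => hf0 u v) (mem_univ v)).trans
          (single_le_sum (f := fun u => ∑ v, f u v)
            (fun u _ => sum_nonneg fun v _ => hf0 u v) (mem_univ u))
      have h3 : f u v = M * d' u v := by
        simp [hf, blow, huv, h]
      rw [le_div_iff₀ hM, ← hsum]
      linarith
  -- (b) the representatives see the original instance
  have hrep : ∀ i j, f (r i) (r j) = c i j / (wt p i * wt p j) * d i j := by
    intro i j
    by_cases h : i = j
    · subst h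
      simp [hf, blow, hc.2.2]
    · simp only [hf, blow, hpr, hd, h, if_false]
  have hb0 : 0 < b := (hw0 (p (Classical.choice (by
    by_contra hne
    rw [not_nonempty_iff] at hne
    have : tot d' = 0 := by simp [tot]
    rw [this] at h1
    exact zero_ne_one h1)))).trans_le (hwb _)
  have hB : ∑ i, ∑ j, f (r i) (r j) ≤ 2 * ε := by
    rw [← hsum]
    calc ∑ i, ∑ j, f (r i) (r j) ≤ ∑ i, ∑ v, f (r i) v :=
          sum_le_sum fun i _ => sum_inj_le hrinj (hf0 (r i))
      _ ≤ ∑ u, ∑ v, f u v :=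
          sum_inj_le (h := fun u => ∑ v, f u v) hrinj (fun u => sum_nonneg fun v _ => hf0 u v)
  have hC : tot (fun i j => c i j * d i j) ≤ b ^ 2 * ε := by
    unfold tot
    have : ∑ i, ∑ j, c i j * d i j ≤ b ^ 2 * ∑ i, ∑ j, f (r i) (r j) := by
      rw [mul_sum]
      apply sum_le_sum
      intro i _
      rw [mul_sum]
      apply sum_le_sum
      intro j _
      rw [hrep]
      have hww : wt p i * wt p j ≤ b ^ 2 := by
        rw [sq]
        exact mul_le_mul (hwb i) (hwb j) (hw0 j).le hb0.le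
      have hpos : 0 < wt p i * wt p j := mul_pos (hw0 i) (hw0 j)
      have hcd : 0 ≤ c i j * d i j := mul_nonneg (hc.2.1 i j) (hdN.nonneg i j)
      have : c i j / (wt p i * wt p j) * d i j = (c i j * d i j) / (wt p i * wt p j) := by ring
      rw [this, mul_div_assoc', le_div_iff₀ hpos]
      nlinarith
    nlinarith
  have hD : glVal c * tot d ≤ b ^ 2 * ε := (glVal_mul_le c hc hdN).trans hC
  -- (e) total distance
  have hE : tot d' ≤ 2 * (Fintype.card W : ℝ) ^ 2 * ε / M + b ^ 2 * tot d := by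
    have h2 : tot d' ≤ tot (fun u v => 4 * ε / M + d (p u) (p v)) := by
      unfold tot
      apply div_le_div_of_nonneg_right _ (by norm_num)
      apply sum_le_sum
      intro u _
      apply sum_le_sum
      intro v _
      have t1 := hd'.2 u (r (p u)) v
      have t2 := hd'.2 (r (p u)) (r (p v)) v
      have t3 := hfib u (r (p u)) (by rw [hpr])
      have t4 := hfib (r (p v)) v (by rw [hpr])
      have : 4 * ε / M = 2 * ε / M + 2 * ε / M := by ring
      simp only [hd]
      linarith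
    have h3 : tot (fun u v => 4 * ε / M + d (p u) (p v))
        = 2 * (Fintype.card W : ℝ) ^ 2 * ε / M + tot (fun u v => d (p u) (p v)) := by
      unfold tot
      simp only [sum_add_distrib, sum_const, card_univ, nsmul_eq_mul]
      ring
    have h4 := tot_comp_le p (fun i => (hw0 i).le) hwb hdN.nonneg
    linarith
  rw [h1] at hE
  have hd0 : 0 ≤ tot d := tot_nonneg hdN.nonneg
  have hF : b ^ 2 * tot d ≤ ε * (b ^ 4 / glVal c) := by
    have : tot d ≤ b ^ 2 * ε / glVal c := by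
      rw [le_div_iff₀ hG]; linarith
    calc b ^ 2 * tot d ≤ b ^ 2 * (b ^ 2 * ε / glVal c) :=
          mul_le_mul_of_nonneg_left this (by positivity)
      _ = ε * (b ^ 4 / glVal c) := by ring
  calc (1 : ℝ) ≤ 2 * (Fintype.card W : ℝ) ^ 2 * ε / M + b ^ 2 * tot d := hE
    _ ≤ 2 * (Fintype.card W : ℝ) ^ 2 * ε / M + ε * (b ^ 4 / glVal c) := by linarith
    _ = ε * (2 * (Fintype.card W : ℝ) ^ 2 / M + b ^ 4 / glVal c) := by ring


lemma glVal_blow_pos (p : W → V) (hp : Function.Surjective p) {c : V → V → ℝ} (hc : IsCap c)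
    {M : ℝ} (hM : 0 < M) {a b : ℝ} (ha : 0 < a) (hw : ∀ i, a ≤ wt p i) (hwb : ∀ i, wt p i ≤ b)
    (hG : 0 < glVal c) : 0 < glVal (blow p c M) := by
  have hw0 : ∀ i, 0 < wt p i := fun i => ha.trans_le (hw i)
  have hcap := blow_isCap p hc hM.le hw0
  have hne : {t | ∃ d : V → V → ℝ, IsNegType d ∧ tot d = 1 ∧
      t = tot (fun i j => c i j * d i j)}.Nonempty := by
    by_contra h
    rw [Set.not_nonempty_iff_eq_empty] at h
    unfold glVal at hG
    rw [h, Real.sInf_empty] at hG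
    exact lt_irrefl _ hG
  obtain ⟨t0, d, hd, h1, -⟩ := hne
  obtain ⟨t', ht', -⟩ := blow_feasible p hc M ha hw hd h1
  set K := 2 * (Fintype.card W : ℝ) ^ 2 / M + b ^ 4 / glVal c with hK
  have hlow : ∀ t ∈ {t | ∃ d' : W → W → ℝ, IsNegType d' ∧ tot d' = 1 ∧
      t = tot (fun u v => blow p c M u v * d' u v)}, 0 ≤ t ∧ 1 ≤ t * K := by
    rintro t ⟨d', hd', h1', rfl⟩
    exact ⟨tot_nonneg fun u v => mul_nonneg (hcap.2.1 u v) (hd'.nonneg u v),
      blow_lower p hp hc hM ha hw hwb hG hd' h1'⟩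
  have hK0 : 0 < K := by
    obtain ⟨h0, h2⟩ := hlow t' ht'
    by_contra h
    push Not at h
    have : t' * K ≤ 0 := mul_nonpos_of_nonneg_of_nonpos h0 h
    linarith
  have : K⁻¹ ≤ glVal (blow p c M) := by
    apply le_csInf ⟨t', ht'⟩
    intro t ht
    obtain ⟨-, h2⟩ := hlow t ht
    rw [inv_le_iff_one_le_mul₀ hK0]
    exact h2
  exact lt_of_lt_of_le (by positivity) this

lemma card_filter_comp (p : W → V) (T : Finset V) :
    ((univ.filter fun u => p u ∈ T).card : ℝ) = ∑ i ∈ T, wt p i := by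
  rw [card_filter]
  push_cast
  rw [sum_comp_wt p (fun i => if i ∈ T then (1 : ℝ) else 0)]
  simp only [mul_ite, mul_one, mul_zero]
  rw [sum_ite_mem, univ_inter]

lemma cut_filter_comp (p : W → V) (c : V → V → ℝ) (M : ℝ) (hw : ∀ i, 0 < wt p i)
    (T T' : Finset V) (hdisj : Disjoint T T') :
    ∑ u ∈ univ.filter (fun u => p u ∈ T), ∑ v ∈ univ.filter (fun v => p v ∈ T'), blow p c M u v
      = ∑ i ∈ T, ∑ j ∈ T', c i j := by
  set G : V → V → ℝ := fun i j =>
    if i ∈ T then (if j ∈ T' then c i j / (wt p i * wt p j) else 0) else 0 with hG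
  have h1 : ∑ u ∈ univ.filter (fun u => p u ∈ T), ∑ v ∈ univ.filter (fun v => p v ∈ T'),
      blow p c M u v = ∑ u, ∑ v, G (p u) (p v) := by
    rw [sum_filter]
    apply sum_congr rfl
    intro u _
    by_cases hu : p u ∈ T
    · simp only [hu, if_true]
      rw [sum_filter]
      apply sum_congr rfl
      intro v _
      by_cases hv : p v ∈ T'
      · have hne : p u ≠ p v := fun e => (disjoint_left.mp hdisj hu) (e ▸ hv)
        simp [hG, hu, hv, blow, hne]
      · simp [hG, hu, hv]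
    · simp [hG, hu]
  rw [h1, sum_sum_comp_wt p G]
  have h2 : ∀ i j, wt p i * wt p j * G i j
      = if i ∈ T then (if j ∈ T' then c i j else 0) else 0 := by
    intro i j
    have := (hw i).ne'
    have := (hw j).ne'
    simp only [hG]
    split_ifs
    · field_simp
    · simp
    · simp
  simp only [h2]
  have h3 : ∀ i, (∑ j, if i ∈ T then (if j ∈ T' then c i j else 0) else 0)
      = if i ∈ T then ∑ j ∈ T', c i j else 0 := by
    intro i
    split_ifs
    · rw [sum_ite_mem, univ_inter]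
    · simp
  simp only [h3]
  rw [sum_ite_mem, univ_inter]

lemma Phi_blow_ge (p : W → V) (hp : Function.Surjective p) [Nontrivial V] {c : V → V → ℝ}
    (hc : IsCap c) {M b : ℝ} (hM : 0 ≤ M) (hw : ∀ i, 0 < wt p i) (hwb : ∀ i, wt p i ≤ b)
    (hbig : Phi c / b ^ 2 * (Fintype.card W : ℝ) ^ 2 ≤ M) :
    Phi c / b ^ 2 ≤ Phi (blow p c M) := by
  have hcap := blow_isCap p hc hM hw
  obtain ⟨i0, j0, hij⟩ := exists_pair_ne V
  have hb0 : 0 < b := (hw i0).trans_le (hwb i0)
  have hP : 0 ≤ Phi c / b ^ 2 := div_nonneg (Phi_nonneg c hc) (by positivity)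
  apply le_csInf
  · obtain ⟨u0, hu0⟩ := hp i0
    obtain ⟨v0, hv0⟩ := hp j0
    refine ⟨_, univ.filter (fun u => p u = i0), ⟨u0, by simp [hu0]⟩, ⟨v0, ?_⟩, rfl⟩
    simp only [mem_compl, mem_filter, mem_univ, true_and, hv0]
    exact fun e => hij e.symm
  · rintro t ⟨S', hS', hS'c, rfl⟩
    have hden : 0 < (S'.card : ℝ) * (S'ᶜ.card : ℝ) := by
      have h1 : 0 < S'.card := card_pos.mpr hS'
      have h2 : 0 < S'ᶜ.card := card_pos.mpr hS'c
      positivity
    by_cases hsplit : ∃ u ∈ S', ∃ v ∈ S'ᶜ, p u = p v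
    · obtain ⟨u, hu, v, hv, huv⟩ := hsplit
      have hne : u ≠ v := by
        intro e
        subst e
        exact (mem_compl.mp hv) hu
      have hcut : M ≤ ∑ u ∈ S', ∑ v ∈ S'ᶜ, blow p c M u v := by
        have h1 : blow p c M u v = M := by simp [blow, huv, hne]
        calc M = blow p c M u v := h1.symm
          _ ≤ ∑ v ∈ S'ᶜ, blow p c M u v := single_le_sum (fun v _ => hcap.2.1 u v) hv
          _ ≤ _ := single_le_sum (f := fun u => ∑ v ∈ S'ᶜ, blow p c M u v)
            (fun u _ => sum_nonneg fun v _ => hcap.2.1 u v) hu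
      unfold cutRatio
      rw [le_div_iff₀ hden]
      have h1 : (S'.card : ℝ) ≤ Fintype.card W := by exact_mod_cast card_le_univ S'
      have h2 : (S'ᶜ.card : ℝ) ≤ Fintype.card W := by exact_mod_cast card_le_univ S'ᶜ
      have h3 : (S'.card : ℝ) * (S'ᶜ.card : ℝ) ≤ (Fintype.card W : ℝ) ^ 2 := by
        rw [sq]
        exact mul_le_mul h1 h2 (by positivity) (by positivity)
      calc Phi c / b ^ 2 * ((S'.card : ℝ) * (S'ᶜ.card : ℝ))
          ≤ Phi c / b ^ 2 * (Fintype.card W : ℝ) ^ 2 := mul_le_mul_of_nonneg_left h3 hP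
        _ ≤ M := hbig
        _ ≤ _ := hcut
    · push Not at hsplit
      obtain ⟨S, hS⟩ : ∃ S, S = S'.image p := ⟨_, rfl⟩
      have hmem : ∀ u, u ∈ S' ↔ p u ∈ S := by
        intro u
        constructor
        · exact fun h => hS ▸ mem_image_of_mem p h
        · intro h
          obtain ⟨u', hu', e⟩ := mem_image.mp (hS ▸ h)
          by_contra hu
          exact hsplit u' hu' u (mem_compl.mpr hu) e
      have hS'eq : S' = univ.filter (fun u => p u ∈ S) := by
        ext u; simp [hmem u]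
      have hS'ceq : S'ᶜ = univ.filter (fun u => p u ∈ Sᶜ) := by
        ext u; simp [hmem u]
      have hSne : S.Nonempty := hS ▸ hS'.image p
      have hScne : Sᶜ.Nonempty := by
        obtain ⟨v, hv⟩ := hS'c
        exact ⟨p v, by rw [mem_compl, ← hmem]; exact mem_compl.mp hv⟩
      have hcut : ∑ u ∈ S', ∑ v ∈ S'ᶜ, blow p c M u v = ∑ i ∈ S, ∑ j ∈ Sᶜ, c i j := by
        rw [hS'ceq]
        nth_rewrite 1 [hS'eq]
        exact cut_filter_comp p c M hw S Sᶜ disjoint_compl_right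
      have hc1 : (S'.card : ℝ) ≤ b * S.card := by
        rw [hS'eq, card_filter_comp]
        calc ∑ i ∈ S, wt p i ≤ ∑ i ∈ S, b := sum_le_sum fun i _ => hwb i
          _ = b * S.card := by rw [sum_const, nsmul_eq_mul, mul_comm]
      have hc2 : (S'ᶜ.card : ℝ) ≤ b * Sᶜ.card := by
        rw [hS'ceq, card_filter_comp]
        calc ∑ i ∈ Sᶜ, wt p i ≤ ∑ i ∈ Sᶜ, b := sum_le_sum fun i _ => hwb i
          _ = b * Sᶜ.card := by rw [sum_const, nsmul_eq_mul, mul_comm]
      have hPhi : Phi c ≤ cutRatio c S := csInf_le (Phi_bdd c hc) ⟨S, hSne, hScne, rfl⟩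
      have hdenS : 0 < (S.card : ℝ) * (Sᶜ.card : ℝ) :=
        mul_pos (by exact_mod_cast card_pos.mpr hSne) (by exact_mod_cast card_pos.mpr hScne)
      have hcutnn : 0 ≤ ∑ i ∈ S, ∑ j ∈ Sᶜ, c i j :=
        sum_nonneg fun i _ => sum_nonneg fun j _ => hc.2.1 i j
      unfold cutRatio at hPhi ⊢
      rw [hcut]
      have hden2 : (S'.card : ℝ) * (S'ᶜ.card : ℝ) ≤ b ^ 2 * ((S.card : ℝ) * (Sᶜ.card : ℝ)) := by
        calc (S'.card : ℝ) * (S'ᶜ.card : ℝ) ≤ (b * S.card) * (b * Sᶜ.card) :=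
              mul_le_mul hc1 hc2 (Nat.cast_nonneg _) (mul_nonneg hb0.le (Nat.cast_nonneg _))
          _ = _ := by ring
      calc Phi c / b ^ 2
          ≤ ((∑ i ∈ S, ∑ j ∈ Sᶜ, c i j) / ((S.card : ℝ) * (Sᶜ.card : ℝ))) / b ^ 2 :=
            div_le_div_of_nonneg_right hPhi (by positivity)
        _ = (∑ i ∈ S, ∑ j ∈ Sᶜ, c i j) / (b ^ 2 * ((S.card : ℝ) * (Sᶜ.card : ℝ))) := by
            rw [div_div, mul_comm]
        _ ≤ (∑ i ∈ S, ∑ j ∈ Sᶜ, c i j) / ((S'.card : ℝ) * (S'ᶜ.card : ℝ)) :=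
            div_le_div_of_nonneg_left hcutnn hden hden2


lemma exists_blow (p : W → V) (hp : Function.Surjective p) [Nontrivial V] {c : V → V → ℝ}
    (hc : IsCap c) (hG : 0 < glVal c) {a b : ℝ} (ha : 0 < a) (hw : ∀ i, a ≤ wt p i)
    (hwb : ∀ i, wt p i ≤ b) :
    ∃ c' : W → W → ℝ, IsCap c' ∧ 0 < glVal c' ∧
      (a / b) ^ 2 * (Phi c / glVal c) ≤ Phi c' / glVal c' := by
  have hw0 : ∀ i, 0 < wt p i := fun i => ha.trans_le (hw i)
  obtain ⟨i0, -, -⟩ := exists_pair_ne V
  have hb0 : 0 < b := (hw0 i0).trans_le (hwb i0)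
  have hP : 0 ≤ Phi c / b ^ 2 := div_nonneg (Phi_nonneg c hc) (by positivity)
  obtain ⟨M, hMdef⟩ : ∃ M, M = Phi c / b ^ 2 * (Fintype.card W : ℝ) ^ 2 + 1 := ⟨_, rfl⟩
  have hM : 0 < M := by rw [hMdef]; positivity
  have h1 : Phi c / b ^ 2 ≤ Phi (blow p c M) :=
    Phi_blow_ge p hp hc hM.le hw0 hwb (by rw [hMdef]; linarith)
  have h2 : a ^ 2 * glVal (blow p c M) ≤ glVal c := glVal_blow_le p hc hM.le ha hw hG
  have h3 : 0 < glVal (blow p c M) := glVal_blow_pos p hp hc hM ha hw hwb hG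
  refine ⟨blow p c M, blow_isCap p hc hM.le hw0, h3, ?_⟩
  rw [le_div_iff₀ h3]
  calc (a / b) ^ 2 * (Phi c / glVal c) * glVal (blow p c M)
      = (Phi c / b ^ 2) * ((a ^ 2 * glVal (blow p c M)) / glVal c) := by
        field_simp
    _ ≤ (Phi c / b ^ 2) * 1 := mul_le_mul_of_nonneg_left ((div_le_one hG).mpr h2) hP
    _ ≤ Phi (blow p c M) := by rw [mul_one]; exact h1

lemma gap_le_of_map {m n : ℕ} (hm : 2 ≤ m) (p : Fin n → Fin m) (hp : Function.Surjective p)
    {a b : ℝ} (ha : 0 < a) (hw : ∀ i, a ≤ wt p i) (hwb : ∀ i, wt p i ≤ b) :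
    ENNReal.ofReal ((a / b) ^ 2) * gap m ≤ gap n := by
  have : Nontrivial (Fin m) := Fin.nontrivial_iff_two_le.mpr hm
  unfold gap
  rw [ENNReal.mul_iSup]
  apply iSup_le
  intro c
  rw [ENNReal.mul_iSup]
  apply iSup_le
  rintro ⟨hc, hG⟩
  obtain ⟨c', hc', hG', hle⟩ := exists_blow p hp hc hG ha hw hwb
  rw [← ENNReal.ofReal_mul (by positivity)]
  exact (ENNReal.ofReal_le_ofReal hle).trans
    (le_iSup₂ (f := fun (c : Fin n → Fin n → ℝ) (_ : IsCap c ∧ 0 < glVal c) =>
      ENNReal.ofReal (Phi c / glVal c)) c' ⟨hc', hG'⟩)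

/-- reduction modulo `m`. -/
def modMap (m n : ℕ) (hm : 0 < m) (u : Fin n) : Fin m := ⟨u.1 % m, Nat.mod_lt _ hm⟩

lemma wt_modMap (m n : ℕ) (hm : 0 < m) (i : Fin m) :
    wt (modMap m n hm) i = ((n / m + if i.1 < n % m then 1 else 0 : ℕ) : ℝ) := by
  unfold wt
  congr 1
  have h := Nat.count_modEq_card n hm i.1
  rw [Nat.mod_eq_of_lt i.2] at h
  rw [← h, Nat.count_eq_card_filter_range, card_filter, card_filter]
  rw [← Fin.sum_univ_eq_sum_range (fun x => if x ≡ i.1 [MOD m] then 1 else 0) n]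
  apply sum_congr rfl
  intro u _
  have : (modMap m n hm u = i) ↔ (u.1 ≡ i.1 [MOD m]) := by
    unfold modMap Nat.ModEq
    rw [Fin.ext_iff, Nat.mod_eq_of_lt i.2]
  simp only [this]

lemma modMap_surj (m n : ℕ) (hm : 0 < m) (hmn : m ≤ n) : Function.Surjective (modMap m n hm) := by
  intro i
  refine ⟨⟨i.1, lt_of_lt_of_le i.2 hmn⟩, ?_⟩
  unfold modMap
  rw [Fin.ext_iff]
  exact Nat.mod_eq_of_lt i.2

/-- **Quasi-monotonicity of the uniform Goemans-Linial integrality gap.** -/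
theorem result :
    (∀ m k : ℕ, 2 ≤ m → 1 ≤ k → gap m ≤ gap (k * m)) ∧
    (∀ m n : ℕ, 2 ≤ m → m ≤ n →
      ENNReal.ofReal ((((n / m : ℕ) : ℝ) / (((n / m : ℕ) : ℝ) + 1)) ^ 2) * gap m ≤ gap n) ∧
    (∀ m n : ℕ, 2 ≤ m → m ≤ n → gap m ≤ 4 * gap n) ∧
    (∀ m n : ℕ, 2 ≤ m → m ≤ n → ∀ c : Fin m → Fin m → ℝ, IsCap c → 0 < glVal c →
      ∃ c' : Fin n → Fin n → ℝ, IsCap c' ∧ 0 < glVal c' ∧
        (((n / m : ℕ) : ℝ) / (((n / m : ℕ) : ℝ) + 1)) ^ 2 * (Phi c / glVal c)
          ≤ Phi c' / glVal c') := by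
  have key : ∀ m n : ℕ, 2 ≤ m → m ≤ n →
      ENNReal.ofReal ((((n / m : ℕ) : ℝ) / (((n / m : ℕ) : ℝ) + 1)) ^ 2) * gap m ≤ gap n := by
    intro m n hm hmn
    have hm0 : 0 < m := by omega
    have hq : 1 ≤ n / m := (Nat.one_le_div_iff hm0).mpr hmn
    have hq' : (1 : ℝ) ≤ ((n / m : ℕ) : ℝ) := by exact_mod_cast hq
    apply gap_le_of_map hm (modMap m n hm0) (modMap_surj m n hm0 hmn) (by linarith)
    · intro i
      rw [wt_modMap]
      push_cast
      split_ifs <;> simp
    · intro i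
      rw [wt_modMap]
      push_cast
      split_ifs <;> simp
  refine ⟨?_, key, ?_, ?_⟩
  · intro m k hm hk
    have hm0 : 0 < m := by omega
    have hmn : m ≤ k * m := Nat.le_mul_of_pos_left m hk
    have hk' : (0 : ℝ) < (k : ℝ) := by exact_mod_cast hk
    have h := gap_le_of_map (a := k) (b := k) hm (modMap m (k * m) hm0)
      (modMap_surj m (k * m) hm0 hmn) hk' ?_ ?_
    · rw [div_self hk'.ne'] at h
      simpa using h
    · intro i
      rw [wt_modMap]
      simp [Nat.mul_div_cancel _ hm0]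
    · intro i
      rw [wt_modMap]
      simp [Nat.mul_div_cancel _ hm0]
  · intro m n hm hmn
    have hm0 : 0 < m := by omega
    have hq : 1 ≤ n / m := (Nat.one_le_div_iff hm0).mpr hmn
    have hq' : (1 : ℝ) ≤ ((n / m : ℕ) : ℝ) := by exact_mod_cast hq
    have h := key m n hm hmn
    have h4 : (1 / 4 : ℝ) ≤ (((n / m : ℕ) : ℝ) / (((n / m : ℕ) : ℝ) + 1)) ^ 2 := by
      have : (1 / 2 : ℝ) ≤ ((n / m : ℕ) : ℝ) / (((n / m : ℕ) : ℝ) + 1) := by
        rw [le_div_iff₀ (by linarith)]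
        linarith
      calc (1 / 4 : ℝ) = (1 / 2) ^ 2 := by norm_num
        _ ≤ _ := pow_le_pow_left₀ (by norm_num) this 2
    have h5 : ENNReal.ofReal (1 / 4) * gap m ≤ gap n :=
      (mul_le_mul_left (ENNReal.ofReal_le_ofReal h4) _).trans h
    have h6 : (4 : ℝ≥0∞) * ENNReal.ofReal (1 / 4) = 1 := by
      rw [show (4 : ℝ≥0∞) = ENNReal.ofReal 4 by simp, ← ENNReal.ofReal_mul (by norm_num)]
      norm_num
    calc gap m = (4 * ENNReal.ofReal (1 / 4)) * gap m := by rw [h6, one_mul]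
      _ = 4 * (ENNReal.ofReal (1 / 4) * gap m) := by rw [mul_assoc]
      _ ≤ 4 * gap n := by gcongr
  · intro m n hm hmn c hc hG
    have hm0 : 0 < m := by omega
    have hq : 1 ≤ n / m := (Nat.one_le_div_iff hm0).mpr hmn
    have hq' : (1 : ℝ) ≤ ((n / m : ℕ) : ℝ) := by exact_mod_cast hq
    have : Nontrivial (Fin m) := Fin.nontrivial_iff_two_le.mpr hm
    apply exists_blow (modMap m n hm0) (modMap_surj m n hm0 hmn) hc hG (by linarith)
    · intro i
      rw [wt_modMap]
      push_cast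
      split_ifs <;> simp
    · intro i
      rw [wt_modMap]
      push_cast
      split_ifs <;> simp

end Vale.Agent.Results.P318.QuasiMonotone
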